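import Vale.Agent.P188.All

namespace Vale.Agent.Results.P188.A_full
open Vale.Agent.P188

theorem result {H Γ : Type*} [Group H] [Group Γ] (S : Finset H) (T : Finset Γ)
    (hS : Subgroup.closure (S : Set H) = ⊤) (hT : Subgroup.closure (T : Set Γ) = ⊤)
    (hΓ : VirtPolycyclic Γ) (K C : ℝ) (F : H → Γ)
    (hF : IsQI (S : Set H) (T : Set Γ) K C F) : VirtPolycyclic H :=
  Vale.Agent.P188.main S T hS hT hΓ hF

end Vale.Agent.Results.P188.A_full
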